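import Mathlib
import Vale.Agent.P209.Alloc

/-!
Sufficiency in the Siegel-Yao packing conjecture for at most `2 ^ n` balls, for any number of
balls up to a constant factor in the volume, and for small balls up to `1 - δ` in the volume.
-/

open scoped BigOperators

namespace Vale.Agent.Results.P209.SufficientRanges

open Vale.Agent.P209

theorem result (n : ℕ) (hn : 1 ≤ n) :
    (∀ (k : ℕ) (R : ℝ) (r : Fin k → ℝ), k ≤ 2 ^ n → 0 < R → (∀ i, 0 < r i) →
      ∑ i, r i ^ n < R ^ n → (∀ i j, i < j → r i + r j < R) → Packs n R r) ∧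
    (∀ (k : ℕ) (R : ℝ) (r : Fin k → ℝ) (i0 : Fin k), 0 < R → (∀ i, 0 < r i) →
      (∀ i j, i < j → r i + r j < R) → (∀ i, r i ≤ r i0) → r i0 < R →
      6 ^ n * ∑ i ∈ Finset.univ.erase i0, r i ^ n ≤ R ^ n - r i0 ^ n → Packs n R r) ∧
    (∀ δ : ℝ, 0 < δ → ∃ η : ℝ, 0 < η ∧ ∀ (k : ℕ) (R : ℝ) (r : Fin k → ℝ) (i0 : Fin k),
      0 < R → (∀ i, 0 < r i) → r i0 < R → (∀ i, i ≠ i0 → r i ≤ η * (R - r i0)) →
      ∑ i ∈ Finset.univ.erase i0, r i ^ n ≤ (1 - δ) * (R ^ n - r i0 ^ n) → Packs n R r) := by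
  have hn' : n ≠ 0 := by omega
  refine ⟨fun k R r hk hR hr hvol hpair => ?_, fun k R r i0 hR hr hpair hmax hlt hvol => ?_,
    fun δ hδ => packs_of_small hn' hδ⟩
  · refine packs_of_le_two_pow hR hr (fun i => ?_) hpair hk
    refine lt_of_pow_lt_pow_left₀ n hR.le (lt_of_le_of_lt ?_ hvol)
    exact Finset.single_le_sum (f := fun i => r i ^ n) (fun j _ => (pow_pos (hr j) n).le)
      (Finset.mem_univ i)
  · exact packs_of_volume_constant hn' hR hr hpair i0 hmax hlt hvol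

end Vale.Agent.Results.P209.SufficientRanges
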